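import Vale.Agent.P113Z.Final

/-!
Halting detection by a particle trajectory of the forced Navier-Stokes system from rest on the
flat torus: one rational point, one rational box and one force compiler serve every viscosity.
-/

open Set
open Vale.Agent.P113Z

theorem Vale.Agent.Results.P113.HaltingDetection.result :
    ∃ (a lo hi : Fin 3 → ℚ)
      (C : (ℕ × ℕ × ℕ × List Bool × List (List (ℕ × ℕ × ℕ))) × List ℕ → Fin 3 → List TermCode),
      (∀ i, lo i < hi i) ∧ ∀ ν : ℝ, 0 < ν → IsForceCompiler ν C ∧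
        ∀ (M : Machine) (w : List (Fin (M.nS + 1))),
          ∃ (u : ℝ → (Fin 3 → ℝ) → Fin 3 → ℝ) (p : ℝ → (Fin 3 → ℝ) → ℝ),
            IsGlobalSmooth ν (forceOf ν (C (M.pairCode w))) u p ∧
            (∀ T : ℝ, 0 < T → ∀ v q, IsClassical ν (forceOf ν (C (M.pairCode w))) (Icc 0 T) v q →
              ∀ t ∈ Icc 0 T, ∀ x, v t x = u t x ∧ q t x = p t x) ∧
            (∃ X, IsTrajectory u (fun i => a i) X ∧
              ∀ Y, IsTrajectory u (fun i => a i) Y → ∀ t, 0 ≤ t → Y t = X t) ∧
            ∀ X, IsTrajectory u (fun i => a i) X →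
              ((∃ t, 0 ≤ t ∧ InBoxImage lo hi (X t)) ↔ M.Halts w) :=
  Vale.Agent.P113Z.main
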